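import Vale.Agent.P042.WA.Spec
import Mathlib.Algebra.Polynomial.Bivariate
import Mathlib.RingTheory.Polynomial.UniqueFactorization
set_option autoImplicit false

/-! W1, part 1: the total degree is additive. -/

namespace Vale.Agent.P042.WA

open Polynomial

namespace W1P

variable {K : Type} [Field K]

/-- `P(X,Y) ↦ P(X, Y X)`, as a polynomial in `X` with coefficients in `K[Y]`. -/
noncomputable def phi : K[X][X] →+* K[X][X] :=
  eval₂RingHom (mapRingHom C) (C X * X)

lemma coeff_phi (P : K[X][X]) (m i : ℕ) :
    ((phi P).coeff m).coeff i = if i ≤ m then (P.coeff i).coeff (m - i) else 0 := by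
  induction P using Polynomial.induction_on' with
  | add p q hp hq =>
    rw [map_add, coeff_add, coeff_add, hp, hq, coeff_add, coeff_add]
    split_ifs <;> simp
  | monomial n a =>
    have h1 : phi (monomial n a) = (a.map C * C (X ^ n)) * X ^ n := by
      simp only [phi, coe_eval₂RingHom, eval₂_monomial, coe_mapRingHom, mul_pow, C_pow]
      ring
    rw [h1, coeff_mul_X_pow', coeff_monomial]
    by_cases hnm : n ≤ m
    · rw [if_pos hnm, coeff_mul_C, coeff_map, coeff_C_mul_X_pow]
      by_cases hin : i = n
      · subst hin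
        rw [if_pos rfl, if_pos hnm, if_pos rfl]
      · rw [if_neg hin, if_neg (fun h : n = i => hin h.symm)]
        simp
    · rw [if_neg hnm]
      by_cases hin : n = i
      · subst hin
        rw [if_neg hnm]; simp
      · rw [if_neg hin]
        simp

lemma phi_injective : Function.Injective (phi : K[X][X] →+* K[X][X]) := by
  rw [injective_iff_map_eq_zero]
  intro P hP
  ext i j
  have h := coeff_phi P (i + j) i
  rw [hP] at h
  simpa using h.symm

lemma natDegree_le_phi (P : K[X][X]) : P.natDegree ≤ (phi P).natDegree := by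
  by_cases hP : P = 0
  · simp [hP]
  · have hl : P.leadingCoeff ≠ 0 := leadingCoeff_ne_zero.mpr hP
    have h := coeff_phi P (P.natDegree + P.leadingCoeff.natDegree) P.natDegree
    rw [if_pos (Nat.le_add_right _ _), Nat.add_sub_cancel_left] at h
    have h2 : (P.coeff P.natDegree).coeff P.leadingCoeff.natDegree ≠ 0 := by
      rw [coeff_natDegree, coeff_natDegree]
      exact leadingCoeff_ne_zero.mpr hl
    have h3 : (phi P).coeff (P.natDegree + P.leadingCoeff.natDegree) ≠ 0 := by
      intro h0
      rw [h0] at h
      simp only [coeff_zero] at h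
      exact h2 h.symm
    exact (Nat.le_add_right _ _).trans (le_natDegree_of_ne_zero h3)

lemma coeff_natDegree_le_of_phi (P : K[X][X]) (d i : ℕ) (h : (phi P).natDegree ≤ d) (hi : i ≤ d) :
    (P.coeff i).natDegree ≤ d - i := by
  rw [natDegree_le_iff_coeff_eq_zero]
  intro N hN
  have h1 := coeff_phi P (i + N) i
  rw [if_pos (Nat.le_add_right _ _), Nat.add_sub_cancel_left] at h1
  rw [← h1, coeff_eq_zero_of_natDegree_lt (p := phi P) (by omega)]
  simp

lemma phi_HH_natDegree (h : K[X]) : (phi (HH h)).natDegree ≤ h.natDegree := by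
  rw [natDegree_le_iff_coeff_eq_zero]
  intro N hN
  ext i
  rw [coeff_phi]
  split_ifs with hi
  · rw [HH, coeff_add, coeff_C, coeff_map]
    by_cases h0 : i = 0
    · subst h0
      rw [if_pos rfl, coeff_add, Nat.sub_zero, coeff_eq_zero_of_natDegree_lt hN, coeff_C,
        if_neg (by omega)]
      simp
    · rw [if_neg h0, zero_add, coeff_C]
      split_ifs with h1
      · have : i = N := by omega
        subst this
        rw [coeff_eq_zero_of_natDegree_lt hN]; simp
      · simp
  · simp

/-- monic divisors of `H` have total degree equal to their degree in `Y`. -/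
lemma tdeg_of_dvd {h : K[X]} {F : K[X][X]} {d : ℕ} (hk : 1 ≤ h.natDegree) (hd : F.natDegree = d)
    (hF : F ∣ HH h) (i : ℕ) (hi : i ≤ d) : (F.coeff i).natDegree ≤ d - i := by
  obtain ⟨Q, hQ⟩ := hF
  have hH : HH h ≠ 0 := by
    intro h0
    have h1 : (HH h).coeff h.natDegree = 0 := by rw [h0]; simp
    rw [HH, coeff_add, coeff_C, if_neg (by omega), coeff_map, zero_add, coeff_natDegree,
      C_eq_zero, leadingCoeff_eq_zero] at h1
    rw [h1] at hk
    simp at hk
  have hF0 : F ≠ 0 := fun h0 => hH (by rw [hQ, h0, zero_mul])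
  have hQ0 : Q ≠ 0 := fun h0 => hH (by rw [hQ, h0, mul_zero])
  have hmul : (phi F).natDegree + (phi Q).natDegree ≤ h.natDegree := by
    rw [← natDegree_mul ((map_ne_zero_iff _ phi_injective).mpr hF0)
      ((map_ne_zero_iff _ phi_injective).mpr hQ0), ← map_mul, ← hQ]
    exact phi_HH_natDegree h
  have hdeg : F.natDegree + Q.natDegree = h.natDegree := by
    rw [← natDegree_mul hF0 hQ0, ← hQ, HH, natDegree_add_eq_right_of_natDegree_lt,
      natDegree_map_eq_of_injective C_injective]
    rw [natDegree_C, natDegree_map_eq_of_injective C_injective]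
    omega
  have h2 := natDegree_le_phi Q
  exact coeff_natDegree_le_of_phi F d i (by omega) hi

end W1P

end Vale.Agent.P042.WA
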