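import Vale.Agent.P042.WA.W1.Deg
import Mathlib.FieldTheory.Finite.Basic
set_option autoImplicit false

/-! W1: the irreducible factor of `h(X) + h(Y)` through `(r, r)`. -/

namespace Vale.Agent.P042.WA

open Polynomial

namespace W1P

section field

variable {K : Type} [Field K]

/-- evaluation at `(a, b)` as a ring homomorphism -/
noncomputable def ev (a b : K) : K[X][X] →+* K := (evalRingHom a).comp (evalRingHom (C b))

lemma ev_apply (a b : K) (F : K[X][X]) : ev a b F = evXY F a b := rfl

lemma evXY_mul (a b : K) (F G : K[X][X]) : evXY (F * G) a b = evXY F a b * evXY G a b := by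
  rw [← ev_apply, map_mul, ev_apply, ev_apply]

lemma evXY_HH (h : K[X]) (a b : K) : evXY (HH h) a b = h.eval a + h.eval b := by
  rw [evXY, HH, eval_add, eval_C, eval_add]
  congr 1
  rw [eval_map, ← coe_eval₂RingHom]
  have : (evalRingHom a).comp (eval₂RingHom (C : K →+* K[X]) (C b)) = evalRingHom b := by
    ext <;> simp
  exact congrArg (fun f : K[X] →+* K => f h) this

lemma derivative_HH (h : K[X]) : derivative (HH h) = (derivative h).map C := by
  rw [HH, derivative_add, derivative_C, zero_add, derivative_map]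

lemma evXY_mapC (h : K[X]) (a b : K) : evXY (h.map C) a b = h.eval b := by
  rw [evXY]
  rw [eval_map, ← coe_eval₂RingHom]
  have : (evalRingHom a).comp (eval₂RingHom (C : K →+* K[X]) (C b)) = evalRingHom b := by
    ext <;> simp
  exact congrArg (fun f : K[X] →+* K => f h) this

lemma HH_ne_zero {h : K[X]} (hk : 1 ≤ h.natDegree) : HH h ≠ 0 := by
  intro h0
  have h1 : (HH h).coeff h.natDegree = 0 := by rw [h0]; simp
  rw [HH, coeff_add, coeff_C, if_neg (by omega), coeff_map, zero_add, coeff_natDegree,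
    C_eq_zero, leadingCoeff_eq_zero] at h1
  rw [h1] at hk
  simp at hk

lemma natDegree_HH {h : K[X]} (hk : 1 ≤ h.natDegree) : (HH h).natDegree = h.natDegree := by
  rw [HH, natDegree_add_eq_right_of_natDegree_lt, natDegree_map_eq_of_injective C_injective]
  rw [natDegree_C, natDegree_map_eq_of_injective C_injective]
  omega

lemma leadingCoeff_HH {h : K[X]} (hk : 1 ≤ h.natDegree) :
    (HH h).leadingCoeff = C h.leadingCoeff := by
  rw [leadingCoeff, natDegree_HH hk, HH, coeff_add, coeff_C, if_neg (by omega), coeff_map,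
    zero_add, coeff_natDegree]

/-- two irreducible factors through the smooth point coincide -/
lemma uniq {h : K[X]} {r : K} (hr' : h.derivative.eval r ≠ 0) {G₁ G₂ : K[X][X]}
    (h1 : Irreducible G₁) (h2 : Irreducible G₂) (d1 : G₁ ∣ HH h) (d2 : G₂ ∣ HH h)
    (e1 : evXY G₁ r r = 0) (e2 : evXY G₂ r r = 0) : Associated G₁ G₂ := by
  by_contra hna
  obtain ⟨Q, hQ⟩ := d1
  have p2 : Prime G₂ := h2.prime
  have hd : G₂ ∣ Q := by
    rw [hQ] at d2
    rcases p2.dvd_or_dvd d2 with h | h
    · exact absurd ((h2.associated_of_dvd h1 h).symm) hna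
    · exact h
  obtain ⟨Q', hQ'⟩ := hd
  have h3 : evXY (derivative (HH h)) r r = 0 := by
    rw [hQ, hQ', derivative_mul, ← ev_apply, map_add, map_mul, map_mul, map_mul, ev_apply _ _ G₁,
      ev_apply _ _ G₂, e1, e2]
    ring
  rw [derivative_HH, evXY_mapC] at h3
  exact hr' h3

/-- the factor exists -/
lemma exists_factor {h : K[X]} {r : K} (hk : 1 ≤ h.natDegree) (hr : h.eval r = 0) :
    ∃ G : K[X][X], G.Monic ∧ Irreducible G ∧ G ∣ HH h ∧ evXY G r r = 0 := by
  classical
  have hH := HH_ne_zero hk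
  have hprod := UniqueFactorizationMonoid.factors_prod hH
  have hev : ev r r (UniqueFactorizationMonoid.factors (HH h)).prod = 0 := by
    obtain ⟨u, hu⟩ := hprod
    have h1 : ev r r ((UniqueFactorizationMonoid.factors (HH h)).prod * u) = 0 := by
      rw [hu, ev_apply, evXY_HH, hr, add_zero]
    rw [map_mul] at h1
    rcases mul_eq_zero.mp h1 with h2 | h2
    · exact h2
    · exact absurd h2 ((Units.isUnit u).map (ev r r)).ne_zero
  rw [map_multiset_prod, Multiset.prod_eq_zero_iff, Multiset.mem_map] at hev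
  obtain ⟨G, hG, hG0⟩ := hev
  have hirr := UniqueFactorizationMonoid.irreducible_of_factor G hG
  have hdvd : G ∣ HH h := UniqueFactorizationMonoid.dvd_of_mem_factors hG
  -- leading coefficient is a unit
  have hlu : IsUnit G.leadingCoeff := by
    obtain ⟨Q, hQ⟩ := hdvd
    have h1 : G.leadingCoeff * Q.leadingCoeff = C h.leadingCoeff := by
      rw [← leadingCoeff_mul, ← hQ, leadingCoeff_HH hk]
    have h2 : IsUnit (C h.leadingCoeff) := by
      rw [isUnit_C, isUnit_iff_ne_zero, Ne, leadingCoeff_eq_zero]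
      intro h0
      rw [h0] at hk
      simp at hk
    exact isUnit_of_mul_isUnit_left (h1 ▸ h2)
  obtain ⟨u, hu⟩ := hlu
  have hau : Associated G (C (↑u⁻¹ : K[X]) * G) :=
    ⟨(u⁻¹).map (C : K[X] →+* K[X][X]).toMonoidHom, by
      rw [mul_comm]; rfl⟩
  refine ⟨C (↑u⁻¹ : K[X]) * G, ?_, hau.irreducible hirr, hau.dvd_iff_dvd_left.mp hdvd, ?_⟩
  · rw [Monic, leadingCoeff_mul, leadingCoeff_C, ← hu]
    exact u.inv_mul
  · rw [evXY_mul, ← ev_apply _ _ G, hG0, mul_zero]

end field

section frob

variable (p : ℕ) [Fact p.Prime]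

/-- abbreviation for the closure -/
abbrev KK : Type := AlgebraicClosure (ZMod p)

lemma mem_range_of_pow_eq {x : KK p} (hx : x ^ p = x) :
    ∃ a : ZMod p, algebraMap (ZMod p) (KK p) a = x := by
  classical
  have hp : 1 < p := (Fact.out : p.Prime).one_lt
  have hne : (X ^ p - X : (KK p)[X]) ≠ 0 := FiniteField.X_pow_card_sub_X_ne_zero _ hp
  have hsub : (Finset.univ.image (algebraMap (ZMod p) (KK p))) ⊆
      (X ^ p - X : (KK p)[X]).roots.toFinset := by
    intro y hy
    rw [Finset.mem_image] at hy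
    obtain ⟨a, -, rfl⟩ := hy
    rw [Multiset.mem_toFinset, mem_roots hne, IsRoot.def, eval_sub, eval_pow, eval_X, ← map_pow,
      ZMod.pow_card, sub_self]
  have hcard : (Finset.univ.image (algebraMap (ZMod p) (KK p))).card = p := by
    rw [Finset.card_image_of_injective _ (algebraMap (ZMod p) (KK p)).injective,
      Finset.card_univ, ZMod.card]
  have heq := Finset.eq_of_subset_of_card_le hsub (by
    rw [hcard]
    refine (Multiset.toFinset_card_le _).trans ((card_roots' _).trans ?_)
    rw [FiniteField.X_pow_card_sub_X_natDegree_eq _ hp])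
  have hmem : x ∈ (X ^ p - X : (KK p)[X]).roots.toFinset := by
    rw [Multiset.mem_toFinset, mem_roots hne, IsRoot.def, eval_sub, eval_pow, eval_X, hx, sub_self]
  rw [← heq, Finset.mem_image] at hmem
  obtain ⟨a, -, ha⟩ := hmem
  exact ⟨a, ha⟩

end frob

/-- a ring automorphism acting on bivariate polynomials -/
noncomputable def mapXYEquiv {R S : Type} [CommRing R] [CommRing S] (e : R ≃+* S) :
    R[X][X] ≃+* S[X][X] := mapEquiv (mapEquiv e)

lemma mapXYEquiv_apply {R S : Type} [CommRing R] [CommRing S] (e : R ≃+* S) (F : R[X][X]) :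
    mapXYEquiv e F = mapXY (e : R →+* S) F := by
  rfl

lemma evXY_mapXY {R S : Type} [CommRing R] [CommRing S] (f : R →+* S) (F : R[X][X]) (a b : R) :
    evXY (mapXY f F) (f a) (f b) = f (evXY F a b) :=
  map_mapRingHom_evalEval f F a b

lemma mapXY_HH {R S : Type} [CommRing R] [CommRing S] (f : R →+* S) (h : R[X]) :
    mapXY f (HH h) = HH (h.map f) := by
  rw [mapXY, HH, HH, Polynomial.map_add, map_C, coe_mapRingHom, Polynomial.map_map,
    Polynomial.map_map]
  congr 2
  ext1 a
  simp

lemma evXY_swap {R : Type} [CommRing R] (F : R[X][X]) (a b : R) :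
    evXY (Bivariate.swap F) a b = evXY F b a := by
  have h := Bivariate.aevalAeval_swap a b F
  rw [coe_aevalAeval_eq_evalEval, coe_aevalAeval_eq_evalEval] at h
  exact h

lemma swap_HH {R : Type} [CommRing R] (h : R[X]) : Bivariate.swap (HH h) = HH h := by
  rw [HH, map_add, Bivariate.swap_C, Bivariate.swap_map_C, add_comm]

lemma swap_irreducible {K : Type} [Field K] {G : K[X][X]} (hG : Irreducible G) :
    Irreducible (Bivariate.swap G) :=
  (MulEquiv.irreducible_iff (Bivariate.swap (R := K)).toMulEquiv).mpr hG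

lemma symm_of_factor {K : Type} [Field K] {h : K[X]} {r : K} (hr' : h.derivative.eval r ≠ 0)
    {G : K[X][X]} (hGi : Irreducible G) (hGd : G ∣ HH h) (hG0 : evXY G r r = 0) (x y : K) :
    evXY G x y = 0 ↔ evXY G y x = 0 := by
  have hsd : Bivariate.swap G ∣ HH h := by
    obtain ⟨Q, hQ⟩ := hGd
    refine ⟨Bivariate.swap Q, ?_⟩
    rw [← map_mul, ← hQ, swap_HH]
  have hs0 : evXY (Bivariate.swap G) r r = 0 := by
    rw [evXY_swap]; exact hG0
  have hsw : Associated G (Bivariate.swap G) :=
    uniq hr' hGi (swap_irreducible hGi) hGd hsd hG0 hs0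
  obtain ⟨u, hu⟩ := hsw
  have h1 : evXY (Bivariate.swap G) x y = evXY G x y * evXY (u : K[X][X]) x y := by
    rw [← hu, evXY_mul]
  rw [evXY_swap] at h1
  have h2 : evXY (u : K[X][X]) x y ≠ 0 := by
    rw [← ev_apply]
    exact (u.isUnit.map (ev x y)).ne_zero
  rw [h1, mul_eq_zero]
  constructor
  · intro h; exact Or.inl h
  · rintro (h | h)
    · exact h
    · exact absurd h h2

/-- the Frobenius automorphism of the closure -/
lemma frob_fixed (p : ℕ) [Fact p.Prime] (G : (KK p)[X][X]) (hG : G.Monic)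
    (h : mapXY (frobenius (KK p) p) G = G) :
    ∃ F : (ZMod p)[X][X], F.Monic ∧ mapXY (algebraMap (ZMod p) (KK p)) F = G := by
  have hinj : Function.Injective (algebraMap (ZMod p) (KK p)) :=
    (algebraMap (ZMod p) (KK p)).injective
  have h1 : ∀ i j, ∃ a : ZMod p, algebraMap (ZMod p) (KK p) a = (G.coeff i).coeff j := by
    intro i j
    apply mem_range_of_pow_eq
    have h2 := congrArg (fun P : (KK p)[X][X] => (P.coeff i).coeff j) h
    simp only [mapXY, coeff_map, coe_mapRingHom, frobenius_def] at h2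
    exact h2
  have h2 : G ∈ lifts (mapRingHom (algebraMap (ZMod p) (KK p))) := by
    rw [lifts_iff_coeff_lifts]
    intro i
    have h3 : G.coeff i ∈ lifts (algebraMap (ZMod p) (KK p)) := by
      rw [lifts_iff_coeff_lifts]
      intro j
      obtain ⟨a, ha⟩ := h1 i j
      exact ⟨a, ha⟩
    rw [mem_lifts] at h3
    obtain ⟨q, hq⟩ := h3
    exact ⟨q, hq⟩
  rw [mem_lifts] at h2
  obtain ⟨F, hF⟩ := h2
  refine ⟨F, ?_, hF⟩
  have hinj2 : Function.Injective (mapRingHom (algebraMap (ZMod p) (KK p))) :=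
    map_injective _ hinj
  rw [← hF] at hG
  exact (Function.Injective.monic_map_iff hinj2).mpr hG

end W1P

/-- block W1 -/
theorem w1 : W1 := by
  intro p _ h r hk hkp hr hr'
  set ι := algebraMap (ZMod p) (AlgebraicClosure (ZMod p)) with hι
  have hιinj : Function.Injective ι := ι.injective
  have hk' : 1 ≤ (h.map ι).natDegree := by
    rw [natDegree_map_eq_of_injective hιinj]; exact hk
  have hr1 : (h.map ι).eval (ι r) = 0 := by
    rw [eval_map, eval₂_hom, hr, map_zero]
  have hr1' : (derivative (h.map ι)).eval (ι r) ≠ 0 := by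
    rw [derivative_map, eval_map, eval₂_hom]
    intro h0
    exact hr' ((map_eq_zero_iff _ hιinj).mp h0)
  obtain ⟨G, hGm, hGi, hGd, hG0⟩ := W1P.exists_factor hk' hr1
  -- Frobenius
  have hfr : ι r ^ p = ι r := by rw [← map_pow, ZMod.pow_card]
  set φ := frobeniusEquiv (AlgebraicClosure (ZMod p)) p with hφ
  have hφ' : (φ : AlgebraicClosure (ZMod p) →+* AlgebraicClosure (ZMod p)) =
      frobenius (AlgebraicClosure (ZMod p)) p := rfl
  have hHH : mapXY (frobenius (AlgebraicClosure (ZMod p)) p) (HH (h.map ι)) = HH (h.map ι) := by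
    rw [W1P.mapXY_HH, Polynomial.map_map]
    congr 2
    exact Subsingleton.elim _ _
  -- the conjugate factor
  have hGφ : Associated (mapXY (frobenius (AlgebraicClosure (ZMod p)) p) G) G := by
    apply W1P.uniq hr1' _ hGi _ hGd _ hG0
    · rw [← hφ', ← W1P.mapXYEquiv_apply]
      exact (MulEquiv.irreducible_iff (W1P.mapXYEquiv φ)).mpr hGi
    · rw [← hHH]
      obtain ⟨Q, hQ⟩ := hGd
      exact ⟨mapXY _ Q, by rw [hQ, mapXY, mapXY, mapXY, Polynomial.map_mul]⟩
    · have h1 := W1P.evXY_mapXY (frobenius (AlgebraicClosure (ZMod p)) p) G (ι r) (ι r)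
      rw [frobenius_def, hfr, hG0, map_zero] at h1
      exact h1
  have hGφm : (mapXY (frobenius (AlgebraicClosure (ZMod p)) p) G).Monic := hGm.map _
  have hGeq : mapXY (frobenius (AlgebraicClosure (ZMod p)) p) G = G :=
    eq_of_monic_of_associated hGφm hGm hGφ
  obtain ⟨F, hFm, hFG⟩ := W1P.frob_fixed p G hGm hGeq
  have hinj2 : Function.Injective (mapRingHom ι) := map_injective _ hιinj
  have hdvd : F ∣ HH h := by
    rw [← map_dvd_map (mapRingHom ι) hinj2 hFm]
    have h1 : (HH h).map (mapRingHom ι) = HH (h.map ι) := W1P.mapXY_HH ι h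
    rw [h1]
    have h2 : F.map (mapRingHom ι) = G := hFG
    rw [h2]
    exact hGd
  have hdeg : F.natDegree = G.natDegree := by
    rw [← hFG, mapXY, natDegree_map_eq_of_injective hinj2]
  have hpos : 1 ≤ F.natDegree := by
    rw [hdeg, Nat.one_le_iff_ne_zero]
    intro h0
    have h1 := eq_one_of_monic_natDegree_zero hGm h0
    rw [h1] at hGi
    exact hGi.not_isUnit isUnit_one
  refine ⟨F, F.natDegree, ⟨hFm, rfl, hpos, ?_, hdvd⟩, ?_, ?_, ?_⟩
  · intro i hi
    exact W1P.tdeg_of_dvd hk rfl hdvd i hi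
  · have h1 := natDegree_le_of_dvd hdvd (W1P.HH_ne_zero hk)
    rwa [W1P.natDegree_HH hk] at h1
  · rw [hFG]; exact hGi
  · -- symmetry
    have key := W1P.symm_of_factor hr1' hGi hGd hG0
    intro x y
    have h1 := key (ι x) (ι y)
    rw [← hFG, W1P.evXY_mapXY, W1P.evXY_mapXY, map_eq_zero_iff _ hιinj,
      map_eq_zero_iff _ hιinj] at h1
    exact h1

end Vale.Agent.P042.WA
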